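import Vale.Agent.P116.Symm

/-!
P116: Koebe circle domains for symmetric domains with complementary components meeting the line.
-/

open Complex Metric Filter Set Topology

namespace Vale.Agent.Results.P116.SymmetricDomains

/-- Every domain symmetric in the real line whose complementary components all meet the line is
conformally equivalent to a circle domain. -/
theorem result :
    ∀ K : Set ℂ, IsCompact K → (∀ z ∈ K, starRingEnd ℂ z ∈ K) → IsConnected Kᶜ →
      (∀ z ∈ K, ∃ x ∈ connectedComponentIn K z, x.im = 0) →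
      ∃ (E : Set ℂ) (F : ℂ → ℂ), IsCompact E ∧ DifferentiableOn ℂ F Kᶜ ∧ BijOn F Kᶜ Eᶜ ∧
        Tendsto F (cocompact ℂ) (cocompact ℂ) ∧
        AnalyticAt ℂ (Function.update (fun t => (F t⁻¹)⁻¹) 0 0) 0 ∧
        ∀ w ∈ E, ∃ (c : ℂ) (r : ℝ), 0 ≤ r ∧ connectedComponentIn E w = closedBall c r := by
  intro K hK hsym hG hmeet
  obtain ⟨E, F, hE, hd, hb, ht, hc⟩ :=
    Vale.Agent.P116.symmetric_uniformisation hK hsym hG hmeet
  refine ⟨E, F, hE, hd, hb, ht, ?_, hc⟩
  have hinv : Tendsto (fun t : ℂ => t⁻¹) (𝓝[≠] 0) (cocompact ℂ) := by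
    rw [← Metric.cobounded_eq_cocompact]
    exact tendsto_inv₀_nhdsNE_zero
  have hF : Tendsto (fun t : ℂ => F t⁻¹) (𝓝[≠] 0) (cocompact ℂ) := ht.comp hinv
  apply Complex.analyticAt_of_differentiable_on_punctured_nhds_of_continuousAt
  · have h1 : ∀ᶠ t in 𝓝[≠] (0 : ℂ), t⁻¹ ∈ Kᶜ := hinv hK.compl_mem_cocompact
    have h2 : ∀ᶠ t in 𝓝[≠] (0 : ℂ), F t⁻¹ ∈ ({0} : Set ℂ)ᶜ :=
      hF isCompact_singleton.compl_mem_cocompact
    filter_upwards [h1, h2, self_mem_nhdsWithin] with t ht1 ht2 ht0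
    refine DifferentiableAt.congr_of_eventuallyEq (f := fun t => (F t⁻¹)⁻¹) ?_ ?_
    · exact DifferentiableAt.inv
        ((hd.differentiableAt (hK.isClosed.isOpen_compl.mem_nhds ht1)).comp t
          (differentiableAt_inv ht0)) ht2
    · filter_upwards [isOpen_compl_singleton.mem_nhds ht0] with s hs
      exact Function.update_of_ne hs _ _
  · rw [continuousAt_update_same]
    rw [← Metric.cobounded_eq_cocompact] at hF
    exact tendsto_inv₀_cobounded.comp hF

end Vale.Agent.Results.P116.SymmetricDomains
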